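import Mathlib

namespace Vale.Agent.Lib.P204

open Matrix

/-- The vector `ξ` with `ξ 0 = 1` and `(J ξ) 0 = 0`. -/
noncomputable def xi (J : Matrix (Fin 4) (Fin 4) ℝ) : Fin 4 → ℝ :=
  (1 + (J 0 0) ^ 2)⁻¹ • (Pi.single 0 1 + (J 0 0) • (J *ᵥ Pi.single 0 1))

/-- The vector `η = J ξ`. -/
noncomputable def eta (J : Matrix (Fin 4) (Fin 4) ℝ) : Fin 4 → ℝ := J *ᵥ xi J

/-- The projection onto `L = {v | v 0 = 0 ∧ (J v) 0 = 0}` along `span {ξ, η}`. -/
noncomputable def proj (J : Matrix (Fin 4) (Fin 4) ℝ) (u : Fin 4 → ℝ) : Fin 4 → ℝ :=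
  u - u 0 • xi J + (J *ᵥ u) 0 • eta J

/-- The bilinear form of a matrix. -/
def bil (β : Matrix (Fin 4) (Fin 4) ℝ) (u v : Fin 4 → ℝ) : ℝ := u ⬝ᵥ β *ᵥ v

theorem JJ {J : Matrix (Fin 4) (Fin 4) ℝ} (hJ : J * J = -1) (w : Fin 4 → ℝ) :
    J *ᵥ (J *ᵥ w) = -w := by
  rw [Matrix.mulVec_mulVec, hJ, Matrix.neg_mulVec, Matrix.one_mulVec]

theorem xi_zero (J : Matrix (Fin 4) (Fin 4) ℝ) : xi J 0 = 1 := by
  have h : (1 + (J 0 0) ^ 2) ≠ 0 := by positivity
  simp only [xi, Matrix.mulVec_single_one, Pi.smul_apply, Pi.add_apply, Pi.single_eq_same,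
    Matrix.col_apply, smul_eq_mul]
  field_simp

theorem Jxi_zero {J : Matrix (Fin 4) (Fin 4) ℝ} (hJ : J * J = -1) : (J *ᵥ xi J) 0 = 0 := by
  have h : (1 + (J 0 0) ^ 2) ≠ 0 := by positivity
  simp only [xi, Matrix.mulVec_smul, Matrix.mulVec_add, JJ hJ]
  simp only [Matrix.mulVec_single_one, Pi.smul_apply, Pi.add_apply, Pi.neg_apply,
    Pi.single_eq_same, Matrix.col_apply, smul_eq_mul]
  ring

theorem eta_zero {J : Matrix (Fin 4) (Fin 4) ℝ} (hJ : J * J = -1) : eta J 0 = 0 := Jxi_zero hJ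

theorem Jeta_zero {J : Matrix (Fin 4) (Fin 4) ℝ} (hJ : J * J = -1) : (J *ᵥ eta J) 0 = -1 := by
  simp [eta, JJ hJ, xi_zero]

theorem Jeta {J : Matrix (Fin 4) (Fin 4) ℝ} (hJ : J * J = -1) : J *ᵥ eta J = -xi J := by
  simp [eta, JJ hJ]

theorem proj_zero {J : Matrix (Fin 4) (Fin 4) ℝ} (hJ : J * J = -1) (u : Fin 4 → ℝ) :
    proj J u 0 = 0 := by
  simp [proj, xi_zero, eta_zero hJ]

theorem Jproj {J : Matrix (Fin 4) (Fin 4) ℝ} (hJ : J * J = -1) (u : Fin 4 → ℝ) :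
    J *ᵥ proj J u = J *ᵥ u - u 0 • eta J - (J *ᵥ u) 0 • xi J := by
  simp only [proj, Matrix.mulVec_add, Matrix.mulVec_sub, Matrix.mulVec_smul, Jeta hJ]
  rw [eta]
  simp [sub_eq_add_neg]

theorem Jproj_zero {J : Matrix (Fin 4) (Fin 4) ℝ} (hJ : J * J = -1) (u : Fin 4 → ℝ) :
    (J *ᵥ proj J u) 0 = 0 := by
  rw [Jproj hJ]
  simp [xi_zero, eta_zero hJ]

theorem proj_J {J : Matrix (Fin 4) (Fin 4) ℝ} (hJ : J * J = -1) (u : Fin 4 → ℝ) :
    proj J (J *ᵥ u) = J *ᵥ proj J u := by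
  rw [Jproj hJ]
  simp only [proj, JJ hJ, Pi.neg_apply, neg_smul]
  abel

theorem proj_of_mem (J : Matrix (Fin 4) (Fin 4) ℝ) (u : Fin 4 → ℝ) (h0 : u 0 = 0)
    (h1 : (J *ᵥ u) 0 = 0) : proj J u = u := by
  simp [proj, h0, h1]

theorem bil_add_left (β : Matrix (Fin 4) (Fin 4) ℝ) (u u' v : Fin 4 → ℝ) :
    bil β (u + u') v = bil β u v + bil β u' v := by
  simp [bil, add_dotProduct]

theorem bil_sub_left (β : Matrix (Fin 4) (Fin 4) ℝ) (u u' v : Fin 4 → ℝ) :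
    bil β (u - u') v = bil β u v - bil β u' v := by
  simp [bil, sub_dotProduct]

theorem bil_smul_left (β : Matrix (Fin 4) (Fin 4) ℝ) (c : ℝ) (u v : Fin 4 → ℝ) :
    bil β (c • u) v = c * bil β u v := by
  simp [bil, smul_dotProduct]

theorem bil_neg_left (β : Matrix (Fin 4) (Fin 4) ℝ) (u v : Fin 4 → ℝ) :
    bil β (-u) v = -bil β u v := by
  simp [bil, neg_dotProduct]

theorem bil_add_right (β : Matrix (Fin 4) (Fin 4) ℝ) (u v v' : Fin 4 → ℝ) :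
    bil β u (v + v') = bil β u v + bil β u v' := by
  simp [bil, Matrix.mulVec_add, dotProduct_add]

theorem bil_sub_right (β : Matrix (Fin 4) (Fin 4) ℝ) (u v v' : Fin 4 → ℝ) :
    bil β u (v - v') = bil β u v - bil β u v' := by
  simp [bil, Matrix.mulVec_sub, dotProduct_sub]

theorem bil_smul_right (β : Matrix (Fin 4) (Fin 4) ℝ) (c : ℝ) (u v : Fin 4 → ℝ) :
    bil β u (c • v) = c * bil β u v := by
  simp [bil, Matrix.mulVec_smul, dotProduct_smul]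

theorem bil_neg_right (β : Matrix (Fin 4) (Fin 4) ℝ) (u v : Fin 4 → ℝ) :
    bil β u (-v) = -bil β u v := by
  simp [bil, Matrix.mulVec_neg, dotProduct_neg]

theorem bil_swap {β : Matrix (Fin 4) (Fin 4) ℝ} (hβ : βᵀ = -β) (u v : Fin 4 → ℝ) :
    bil β v u = -bil β u v := by
  have h : bil β u v = bil βᵀ v u := by
    simp only [bil]
    rw [Matrix.mulVec_transpose, Matrix.dotProduct_mulVec, dotProduct_comm]
  rw [h, hβ]
  simp [bil, Matrix.neg_mulVec, dotProduct_neg]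

theorem bil_self {β : Matrix (Fin 4) (Fin 4) ℝ} (hβ : βᵀ = -β) (u : Fin 4 → ℝ) :
    bil β u u = 0 := by
  have := bil_swap hβ u u
  linarith

/-- Key four-dimensional fact: `L = {v | v 0 = 0 ∧ (J v) 0 = 0}` is spanned by `u` and `J u`
for any nonzero `u ∈ L`. -/
theorem exists_span {J : Matrix (Fin 4) (Fin 4) ℝ} (hJ : J * J = -1) {u v : Fin 4 → ℝ}
    (hu : u ≠ 0) (hu0 : u 0 = 0) (hu1 : (J *ᵥ u) 0 = 0) (hv0 : v 0 = 0)
    (hv1 : (J *ᵥ v) 0 = 0) : ∃ a b : ℝ, v = a • u + b • J *ᵥ u := by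
  have hdep : ¬ LinearIndependent ℝ
      ![(Pi.single 0 1 : Fin 4 → ℝ), J *ᵥ Pi.single 0 1, u, J *ᵥ u, v] := by
    intro h
    have h5 := h.fintype_card_le_finrank
    simp at h5
  obtain ⟨g, hg, i, hi⟩ := Fintype.not_linearIndependent_iff.1 hdep
  rw [Fin.sum_univ_five] at hg
  simp only [Matrix.cons_val_zero, Matrix.cons_val_one, Matrix.cons_val] at hg
  have h0 := congrFun hg 0
  have h1 := congrArg (fun z => (J *ᵥ z) 0) hg
  simp only [Matrix.mulVec_add, Matrix.mulVec_smul, JJ hJ, Matrix.mulVec_zero] at h1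
  simp only [Pi.add_apply, Pi.smul_apply, Pi.neg_apply, Pi.zero_apply, smul_eq_mul, hu0, hu1,
    hv0, hv1, Pi.single_eq_same, Matrix.mulVec_single_one, Matrix.col_apply] at h0 h1
  have hg0 : g 0 = 0 := by
    have : g 0 * (1 + (J 0 0) ^ 2) = 0 := by linear_combination h0 + (J 0 0) * h1
    rcases mul_eq_zero.1 this with h | h
    · exact h
    · exfalso; nlinarith [sq_nonneg (J 0 0)]
  have hg1 : g 1 = 0 := by
    rw [hg0] at h1
    linarith
  rw [hg0, hg1, zero_smul, zero_smul, zero_add, zero_add] at hg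
  by_cases hg4 : g 4 = 0
  · exfalso
    rw [hg4, zero_smul, add_zero] at hg
    have hJg := congrArg (fun z => J *ᵥ z) hg
    simp only [Matrix.mulVec_add, Matrix.mulVec_smul, JJ hJ, Matrix.mulVec_zero] at hJg
    have hsq : (g 2 ^ 2 + g 3 ^ 2) • u = 0 := by
      have e1 : (g 2 ^ 2 + g 3 ^ 2) • u
          = g 2 • (g 2 • u + g 3 • J *ᵥ u) - g 3 • (g 2 • J *ᵥ u + g 3 • -u) := by
        module
      rw [e1, hg, hJg]
      simp
    rcases smul_eq_zero.1 hsq with h | h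
    · have h2 : g 2 = 0 := by nlinarith [sq_nonneg (g 2), sq_nonneg (g 3)]
      have h3 : g 3 = 0 := by nlinarith [sq_nonneg (g 2), sq_nonneg (g 3)]
      fin_cases i <;> simp_all
    · exact hu h
  · refine ⟨-(g 2 / g 4), -(g 3 / g 4), ?_⟩
    have e1 : v = (g 4)⁻¹ • (g 2 • u + g 3 • J *ᵥ u + g 4 • v)
        + (-(g 2 / g 4) • u + -(g 3 / g 4) • J *ᵥ u) := by
      rw [smul_add, smul_add, smul_smul, smul_smul, smul_smul, inv_mul_cancel₀ hg4]
      module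
    rw [hg, smul_zero, zero_add] at e1
    exact e1

/-- On `L`, every alternating form is `J`-invariant (this is where dimension four is used). -/
theorem bil_J_of_mem {J β : Matrix (Fin 4) (Fin 4) ℝ} (hJ : J * J = -1) (hβ : βᵀ = -β)
    {u v : Fin 4 → ℝ} (hu0 : u 0 = 0) (hu1 : (J *ᵥ u) 0 = 0) (hv0 : v 0 = 0)
    (hv1 : (J *ᵥ v) 0 = 0) : bil β (J *ᵥ u) (J *ᵥ v) = bil β u v := by
  by_cases hu : u = 0
  · subst hu
    simp [bil]
  · obtain ⟨a, b, rfl⟩ := exists_span hJ hu hu0 hu1 hv0 hv1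
    simp only [Matrix.mulVec_add, Matrix.mulVec_smul, JJ hJ, bil_add_right, bil_smul_right,
      bil_neg_right, bil_self hβ]
    rw [bil_swap hβ u (J *ᵥ u)]
    ring

theorem proj_add (J : Matrix (Fin 4) (Fin 4) ℝ) (u u' : Fin 4 → ℝ) :
    proj J (u + u') = proj J u + proj J u' := by
  simp only [proj, Matrix.mulVec_add, Pi.add_apply, add_smul]
  abel

theorem proj_smul (J : Matrix (Fin 4) (Fin 4) ℝ) (c : ℝ) (u : Fin 4 → ℝ) :
    proj J (c • u) = c • proj J u := by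
  simp only [proj, Matrix.mulVec_smul, Pi.smul_apply, smul_eq_mul, smul_add, smul_sub, smul_smul]

/-- The `J`-invariant two-form built from a constant alternating matrix `β`, the almost complex
structure `J` at a point, and a real parameter `T`. -/
noncomputable def Om (J β : Matrix (Fin 4) (Fin 4) ℝ) (T : ℝ) (u v : Fin 4 → ℝ) : ℝ :=
  bil β (proj J u) (proj J v)
    + u 0 * bil β (eta J) (J *ᵥ proj J v) - (J *ᵥ u) 0 * bil β (eta J) (proj J v)
    - v 0 * bil β (eta J) (J *ᵥ proj J u) + (J *ᵥ v) 0 * bil β (eta J) (proj J u)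
    + T * ((J *ᵥ u) 0 * v 0 - u 0 * (J *ᵥ v) 0)

theorem Om_add_left (J β : Matrix (Fin 4) (Fin 4) ℝ) (T : ℝ) (u u' v : Fin 4 → ℝ) :
    Om J β T (u + u') v = Om J β T u v + Om J β T u' v := by
  simp only [Om, proj_add, Matrix.mulVec_add, Pi.add_apply, bil_add_left, bil_add_right]
  ring

theorem Om_smul_left (J β : Matrix (Fin 4) (Fin 4) ℝ) (T : ℝ) (c : ℝ) (u v : Fin 4 → ℝ) :
    Om J β T (c • u) v = c * Om J β T u v := by
  simp only [Om, proj_smul, Matrix.mulVec_smul, Pi.smul_apply, smul_eq_mul, bil_smul_left,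
    bil_smul_right]
  ring

theorem Om_add_right (J β : Matrix (Fin 4) (Fin 4) ℝ) (T : ℝ) (u v v' : Fin 4 → ℝ) :
    Om J β T u (v + v') = Om J β T u v + Om J β T u v' := by
  simp only [Om, proj_add, Matrix.mulVec_add, Pi.add_apply, bil_add_left, bil_add_right]
  ring

theorem Om_smul_right (J β : Matrix (Fin 4) (Fin 4) ℝ) (T : ℝ) (c : ℝ) (u v : Fin 4 → ℝ) :
    Om J β T u (c • v) = c * Om J β T u v := by
  simp only [Om, proj_smul, Matrix.mulVec_smul, Pi.smul_apply, smul_eq_mul, bil_smul_left,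
    bil_smul_right]
  ring

theorem Om_swap {β : Matrix (Fin 4) (Fin 4) ℝ} (hβ : βᵀ = -β) (J : Matrix (Fin 4) (Fin 4) ℝ)
    (T : ℝ) (u v : Fin 4 → ℝ) : Om J β T v u = -Om J β T u v := by
  simp only [Om]
  rw [bil_swap hβ (proj J u) (proj J v)]
  ring

/-- `J`-invariance of `Om`. -/
theorem Om_J {J β : Matrix (Fin 4) (Fin 4) ℝ} (hJ : J * J = -1) (hβ : βᵀ = -β) (T : ℝ)
    (u v : Fin 4 → ℝ) : Om J β T (J *ᵥ u) (J *ᵥ v) = Om J β T u v := by
  simp only [Om, proj_J hJ, JJ hJ, Pi.neg_apply, bil_neg_right]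
  rw [bil_J_of_mem hJ hβ (proj_zero hJ u) (Jproj_zero hJ u) (proj_zero hJ v) (Jproj_zero hJ v)]
  ring

/-- On the hyperplane `{u | u 0 = 0}` the form `Om` restricts to `β`. -/
theorem Om_of_zero {J β : Matrix (Fin 4) (Fin 4) ℝ} (hβ : βᵀ = -β) (T : ℝ)
    {u v : Fin 4 → ℝ} (hu : u 0 = 0) (hv : v 0 = 0) : Om J β T u v = bil β u v := by
  simp only [Om, proj, hu, hv, zero_smul, sub_zero, zero_mul, mul_zero, bil_add_left,
    bil_add_right, bil_smul_left, bil_smul_right, bil_self hβ]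
  rw [bil_swap hβ u (eta J)]
  ring

theorem Om_tame {J : Matrix (Fin 4) (Fin 4) ℝ} (hJ : J * J = -1) (β : Matrix (Fin 4) (Fin 4) ℝ)
    (T : ℝ) (v : Fin 4 → ℝ) :
    Om J β T v (J *ᵥ v) = Om J β 0 v (J *ᵥ v) + T * (v 0 ^ 2 + (J *ᵥ v) 0 ^ 2) := by
  simp only [Om, JJ hJ, Pi.neg_apply]
  ring

theorem Om_mem {J : Matrix (Fin 4) (Fin 4) ℝ} (hJ : J * J = -1) (β : Matrix (Fin 4) (Fin 4) ℝ)
    {v : Fin 4 → ℝ} (h0 : v 0 = 0) (h1 : (J *ᵥ v) 0 = 0) :
    Om J β 0 v (J *ᵥ v) = bil β v (J *ᵥ v) := by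
  simp only [Om, proj_J hJ, proj_of_mem J v h0 h1, JJ hJ, Pi.neg_apply, h0, h1]
  ring

/-- The matrix of a bilinear function. -/
theorem dot_of_bilin (B : (Fin 4 → ℝ) → (Fin 4 → ℝ) → ℝ)
    (h1 : ∀ u u' v, B (u + u') v = B u v + B u' v) (h2 : ∀ (c : ℝ) u v, B (c • u) v = c * B u v)
    (h3 : ∀ u v v', B u (v + v') = B u v + B u v') (h4 : ∀ (c : ℝ) u v, B u (c • v) = c * B u v)
    (u v : Fin 4 → ℝ) :
    u ⬝ᵥ (Matrix.of fun i j => B (Pi.single i 1) (Pi.single j 1)) *ᵥ v = B u v := by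
  let L : LinearMap.BilinForm ℝ (Fin 4 → ℝ) := LinearMap.mk₂ ℝ B h1 h2 h3 h4
  have hL : (Matrix.of fun i j => B (Pi.single i 1) (Pi.single j 1))
      = LinearMap.BilinForm.toMatrix' L := by
    ext i j
    simp [L, LinearMap.BilinForm.toMatrix'_apply]
  rw [hL, ← Matrix.toBilin'_apply', Matrix.toBilin'_toMatrix']
  rfl

/-- The matrix of `Om`. -/
noncomputable def omMat (J β : Matrix (Fin 4) (Fin 4) ℝ) (T : ℝ) : Matrix (Fin 4) (Fin 4) ℝ :=
  Matrix.of fun i j => Om J β T (Pi.single i 1) (Pi.single j 1)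

theorem dot_omMat (J β : Matrix (Fin 4) (Fin 4) ℝ) (T : ℝ) (u v : Fin 4 → ℝ) :
    u ⬝ᵥ omMat J β T *ᵥ v = Om J β T u v :=
  dot_of_bilin (Om J β T) (Om_add_left J β T) (Om_smul_left J β T) (Om_add_right J β T)
    (Om_smul_right J β T) u v

theorem mat_ext_bil {A B : Matrix (Fin 4) (Fin 4) ℝ}
    (h : ∀ u v : Fin 4 → ℝ, u ⬝ᵥ A *ᵥ v = u ⬝ᵥ B *ᵥ v) : A = B := by
  ext i j
  have := h (Pi.single i 1) (Pi.single j 1)
  simpa [Matrix.mulVec_single_one] using this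

theorem omMat_transpose {β : Matrix (Fin 4) (Fin 4) ℝ} (hβ : βᵀ = -β)
    (J : Matrix (Fin 4) (Fin 4) ℝ) (T : ℝ) : (omMat J β T)ᵀ = -omMat J β T := by
  ext i j
  simp only [omMat, Matrix.transpose_apply, Matrix.of_apply, Matrix.neg_apply]
  exact Om_swap hβ J T _ _

theorem omMat_J {J β : Matrix (Fin 4) (Fin 4) ℝ} (hJ : J * J = -1) (hβ : βᵀ = -β) (T : ℝ) :
    Jᵀ * omMat J β T * J = omMat J β T := by
  apply mat_ext_bil
  intro u v
  rw [← Matrix.mulVec_mulVec, ← Matrix.mulVec_mulVec, Matrix.dotProduct_mulVec,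
    Matrix.vecMul_transpose, dot_omMat, dot_omMat, Om_J hJ hβ]

theorem omMat_apply_of_ne {β : Matrix (Fin 4) (Fin 4) ℝ} (hβ : βᵀ = -β)
    (J : Matrix (Fin 4) (Fin 4) ℝ) (T : ℝ) {j k : Fin 4} (hj : j ≠ 0) (hk : k ≠ 0) :
    omMat J β T j k = β j k := by
  simp only [omMat, Matrix.of_apply]
  rw [Om_of_zero hβ T (Pi.single_eq_of_ne' hj 1) (Pi.single_eq_of_ne' hk 1)]
  simp [bil, Matrix.mulVec_single_one]

end Vale.Agent.Lib.P204
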