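import Mathlib

namespace Vale.Agent.Lib.P204

open MeasureTheory Set Matrix
open scoped ContDiff

/-- The average of a matrix field over the slice `{x | x 0 = t}` of the unit cube. -/
noncomputable def avg (F : (Fin 4 → ℝ) → Matrix (Fin 4) (Fin 4) ℝ) (t : ℝ) :
    Matrix (Fin 4) (Fin 4) ℝ :=
  Matrix.of fun j k => ∫ y in Icc (0 : Fin 3 → ℝ) 1, F (Fin.insertNth 0 t y) j k

theorem insertNth_one_eq (p : Fin 4) (y : Fin 3 → ℝ) :
    (Fin.insertNth p (1 : ℝ) y : Fin 4 → ℝ)
      = fun l => (Fin.insertNth p (0 : ℝ) y : Fin 4 → ℝ) l + ((Pi.single p 1 : Fin 4 → ℤ) l : ℝ) := by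
  funext l
  by_cases hl : l = p
  · subst hl
    simp
  · obtain ⟨m, rfl⟩ := Fin.exists_succAbove_eq hl
    simp

theorem avg_eq_of_le (F : (Fin 4 → ℝ) → Matrix (Fin 4) (Fin 4) ℝ)
    (hsm : ∀ i j, ContDiff ℝ ∞ fun x => F x i j)
    (hper : ∀ (x : Fin 4 → ℝ) (n : Fin 4 → ℤ), n 0 = 0 → F (fun i => x i + n i) = F x)
    (hcl : ∀ (x : Fin 4 → ℝ) (i j k : Fin 4),
      fderiv ℝ (fun y => F y j k) x (Pi.single i 1) + fderiv ℝ (fun y => F y k i) x (Pi.single j 1)
        + fderiv ℝ (fun y => F y i j) x (Pi.single k 1) = 0)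
    {j k : Fin 4} (hj : j ≠ 0) (hk : k ≠ 0) {s t : ℝ} (hst : s ≤ t) :
    avg F s j k = avg F t j k := by
  set f : Fin 4 → (Fin 4 → ℝ) → ℝ := fun i x =>
    (if i = 0 then (1 : ℝ) else 0) * F x j k + (if i = j then (1 : ℝ) else 0) * F x k 0
      + (if i = k then (1 : ℝ) else 0) * F x 0 j with hf
  set f' : Fin 4 → (Fin 4 → ℝ) → (Fin 4 → ℝ) →L[ℝ] ℝ := fun i x =>
    (if i = 0 then (1 : ℝ) else 0) • fderiv ℝ (fun y => F y j k) x
      + (if i = j then (1 : ℝ) else 0) • fderiv ℝ (fun y => F y k 0) x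
      + (if i = k then (1 : ℝ) else 0) • fderiv ℝ (fun y => F y 0 j) x with hf'
  have hdiv : ∀ x, ∑ i, f' i x (Pi.single i 1) = 0 := by
    intro x
    simp only [hf', _root_.add_apply, _root_.smul_apply, smul_eq_mul,
      Finset.sum_add_distrib, ite_mul, one_mul, zero_mul, Finset.sum_ite_eq', Finset.mem_univ,
      if_true]
    exact hcl x 0 j k
  have hdiff : ∀ a b : Fin 4, Differentiable ℝ fun x => F x a b := fun a b =>
    (hsm a b).differentiable (by simp)
  have hle : (Fin.cons s (fun _ => 0) : Fin 4 → ℝ) ≤ Fin.cons t (fun _ => 1) := by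
    intro i
    refine Fin.cases ?_ (fun i => ?_) i
    · simpa using hst
    · simp
  have key := integral_divergence_of_hasFDerivAt_off_countable'
    (Fin.cons s (fun _ => 0) : Fin 4 → ℝ) (Fin.cons t (fun _ => 1)) hle f f' ∅ countable_empty
    (fun i => by
      apply Continuous.continuousOn
      have h1 := (hsm j k).continuous
      have h2 := (hsm k 0).continuous
      have h3 := (hsm 0 j).continuous
      exact ((continuous_const.mul h1).add (continuous_const.mul h2)).add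
        (continuous_const.mul h3))
    (fun x _ i =>
      (((hdiff j k x).hasFDerivAt.const_mul _).add ((hdiff k 0 x).hasFDerivAt.const_mul _)).add
        ((hdiff 0 j x).hasFDerivAt.const_mul _))
    (by simp only [hdiv]; exact integrableOn_zero)
  simp only [hdiv, integral_zero] at key
  rw [Fin.sum_univ_succ] at key
  have hrest : ∀ i : Fin 3,
      (∫ x in Icc ((Fin.cons s (fun _ => 0) : Fin 4 → ℝ) ∘ i.succ.succAbove)
          ((Fin.cons t (fun _ => 1) : Fin 4 → ℝ) ∘ i.succ.succAbove),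
          f i.succ (i.succ.insertNth ((Fin.cons t (fun _ => 1) : Fin 4 → ℝ) i.succ) x))
        - ∫ x in Icc ((Fin.cons s (fun _ => 0) : Fin 4 → ℝ) ∘ i.succ.succAbove)
          ((Fin.cons t (fun _ => 1) : Fin 4 → ℝ) ∘ i.succ.succAbove),
          f i.succ (i.succ.insertNth ((Fin.cons s (fun _ => 0) : Fin 4 → ℝ) i.succ) x) = 0 := by
    intro i
    rw [sub_eq_zero]
    congr 1
    funext y
    simp only [Fin.cons_succ, hf]
    rw [insertNth_one_eq, hper _ _ (Pi.single_eq_of_ne' (Fin.succ_ne_zero i) 1)]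
  simp only [hrest, Finset.sum_const_zero, add_zero] at key
  have h0 : ∀ x : Fin 4 → ℝ, f 0 x = F x j k := by
    intro x
    simp [hf, hj.symm, hk.symm]
  simp only [h0, Fin.cons_zero, Fin.succAbove_zero] at key
  have e1 : (Fin.cons s (fun _ => 0) : Fin 4 → ℝ) ∘ Fin.succ = (0 : Fin 3 → ℝ) := by
    funext i; simp
  have e2 : (Fin.cons t (fun _ => 1) : Fin 4 → ℝ) ∘ Fin.succ = (1 : Fin 3 → ℝ) := by
    funext i; simp
  rw [e1, e2] at key
  simp only [avg, Matrix.of_apply]
  linarith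

theorem avg_eq (F : (Fin 4 → ℝ) → Matrix (Fin 4) (Fin 4) ℝ)
    (hsm : ∀ i j, ContDiff ℝ ∞ fun x => F x i j)
    (hper : ∀ (x : Fin 4 → ℝ) (n : Fin 4 → ℤ), n 0 = 0 → F (fun i => x i + n i) = F x)
    (hcl : ∀ (x : Fin 4 → ℝ) (i j k : Fin 4),
      fderiv ℝ (fun y => F y j k) x (Pi.single i 1) + fderiv ℝ (fun y => F y k i) x (Pi.single j 1)
        + fderiv ℝ (fun y => F y i j) x (Pi.single k 1) = 0)
    {j k : Fin 4} (hj : j ≠ 0) (hk : k ≠ 0) (s t : ℝ) :
    avg F s j k = avg F t j k := by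
  rcases le_total s t with h | h
  · exact avg_eq_of_le F hsm hper hcl hj hk h
  · exact (avg_eq_of_le F hsm hper hcl hj hk h).symm

theorem avg_transpose (F : (Fin 4 → ℝ) → Matrix (Fin 4) (Fin 4) ℝ)
    (hanti : ∀ x, (F x)ᵀ = -F x) (t : ℝ) : (avg F t)ᵀ = -avg F t := by
  ext j k
  simp only [avg, Matrix.transpose_apply, Matrix.of_apply, Matrix.neg_apply]
  rw [← integral_neg]
  congr 1
  funext y
  have := congrFun (congrFun (hanti (Fin.insertNth 0 t y)) j) k
  simpa using this

theorem avg_pos (F : (Fin 4 → ℝ) → Matrix (Fin 4) (Fin 4) ℝ)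
    (hsm : ∀ i j, ContDiff ℝ ∞ fun x => F x i j) (t : ℝ) (v w : Fin 4 → ℝ)
    (hpos : ∀ y : Fin 3 → ℝ, 0 < v ⬝ᵥ (F (Fin.insertNth 0 t y)).mulVec w) :
    0 < v ⬝ᵥ (avg F t).mulVec w := by
  have hcont : ∀ j k : Fin 4, Continuous fun y : Fin 3 → ℝ => F (Fin.insertNth 0 t y) j k := by
    intro j k
    have h1 : Continuous fun y : Fin 3 → ℝ => (Fin.insertNth 0 t y : Fin 4 → ℝ) := by
      apply continuous_pi
      intro i
      refine Fin.cases ?_ (fun i => ?_) i
      · simpa using continuous_const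
      · simpa using continuous_apply i
    exact (hsm j k).continuous.comp h1
  have hint : ∀ j k : Fin 4, IntegrableOn (fun y : Fin 3 → ℝ => F (Fin.insertNth 0 t y) j k)
      (Icc (0 : Fin 3 → ℝ) 1) := fun j k => (hcont j k).integrableOn_Icc
  have heq : v ⬝ᵥ (avg F t).mulVec w
      = ∫ y in Icc (0 : Fin 3 → ℝ) 1, v ⬝ᵥ (F (Fin.insertNth 0 t y)).mulVec w := by
    simp only [dotProduct, Matrix.mulVec, avg, Matrix.of_apply, Finset.mul_sum]
    rw [integral_finsetSum _ (fun j _ => ?_)]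
    · refine Finset.sum_congr rfl fun j _ => ?_
      rw [integral_finsetSum _ (fun k _ => ?_)]
      · refine Finset.sum_congr rfl fun k _ => ?_
        rw [integral_const_mul, integral_mul_const]
      · exact ((hint j k).mul_const _).const_mul _
    · exact integrable_finsetSum _ fun k _ => ((hint j k).mul_const _).const_mul _
  rw [heq, setIntegral_pos_iff_support_of_nonneg_ae]
  · have hs : Function.support (fun y : Fin 3 → ℝ => v ⬝ᵥ (F (Fin.insertNth 0 t y)).mulVec w)
        ∩ Icc (0 : Fin 3 → ℝ) 1 = Icc (0 : Fin 3 → ℝ) 1 := by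
      ext y
      simp only [mem_inter_iff, Function.mem_support, and_iff_right_iff_imp]
      intro _
      exact (hpos y).ne'
    rw [hs, Real.volume_Icc_pi]
    simp
  · exact Filter.Eventually.of_forall fun y => (hpos y).le
  · simp only [dotProduct, Matrix.mulVec, Finset.mul_sum]
    exact integrable_finsetSum _ fun j _ =>
      integrable_finsetSum _ fun k _ => ((hint j k).mul_const _).const_mul _

end Vale.Agent.Lib.P204
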