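import Mathlib
import Vale.Agent.Lib.P204.Algebra

namespace Vale.Agent.Lib.P204

open Matrix

variable {X : Type*} [NormedAddCommGroup X] [NormedSpace ℝ X] {n : WithTop ℕ∞}

theorem smooth_mulVec {A : X → Matrix (Fin 4) (Fin 4) ℝ} {w : X → Fin 4 → ℝ}
    (hA : ∀ i j, ContDiff ℝ n fun x => A x i j) (hw : ∀ i, ContDiff ℝ n fun x => w x i)
    (i : Fin 4) : ContDiff ℝ n fun x => (A x *ᵥ w x) i := by
  simp only [Matrix.mulVec, dotProduct]
  exact ContDiff.sum fun j _ => (hA i j).mul (hw j)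

theorem smooth_bil (β : Matrix (Fin 4) (Fin 4) ℝ) {u v : X → Fin 4 → ℝ}
    (hu : ∀ i, ContDiff ℝ n fun x => u x i) (hv : ∀ i, ContDiff ℝ n fun x => v x i) :
    ContDiff ℝ n fun x => bil β (u x) (v x) := by
  simp only [bil, Matrix.mulVec, dotProduct]
  exact ContDiff.sum fun i _ => (hu i).mul (ContDiff.sum fun j _ => contDiff_const.mul (hv j))

theorem smooth_xi {J : X → Matrix (Fin 4) (Fin 4) ℝ} (hJ : ∀ i j, ContDiff ℝ n fun x => J x i j)
    (i : Fin 4) : ContDiff ℝ n fun x => xi (J x) i := by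
  simp only [xi, Pi.smul_apply, Pi.add_apply, smul_eq_mul]
  refine ContDiff.mul (ContDiff.inv (contDiff_const.add ((hJ 0 0).pow 2)) fun x => ?_) ?_
  · positivity
  · exact contDiff_const.add ((hJ 0 0).mul
      (smooth_mulVec (w := fun _ => Pi.single 0 1) hJ (fun _ => contDiff_const) i))

theorem smooth_eta {J : X → Matrix (Fin 4) (Fin 4) ℝ} (hJ : ∀ i j, ContDiff ℝ n fun x => J x i j)
    (i : Fin 4) : ContDiff ℝ n fun x => eta (J x) i :=
  smooth_mulVec hJ (smooth_xi hJ) i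

theorem smooth_proj {J : X → Matrix (Fin 4) (Fin 4) ℝ} (hJ : ∀ i j, ContDiff ℝ n fun x => J x i j)
    {u : X → Fin 4 → ℝ} (hu : ∀ i, ContDiff ℝ n fun x => u x i) (i : Fin 4) :
    ContDiff ℝ n fun x => proj (J x) (u x) i := by
  simp only [proj, Pi.add_apply, Pi.sub_apply, Pi.smul_apply, smul_eq_mul]
  exact ((hu i).sub ((hu 0).mul (smooth_xi hJ i))).add
    ((smooth_mulVec hJ hu 0).mul (smooth_eta hJ i))

theorem smooth_Om {J : X → Matrix (Fin 4) (Fin 4) ℝ} (hJ : ∀ i j, ContDiff ℝ n fun x => J x i j)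
    (β : Matrix (Fin 4) (Fin 4) ℝ) (T : ℝ) {u v : X → Fin 4 → ℝ}
    (hu : ∀ i, ContDiff ℝ n fun x => u x i) (hv : ∀ i, ContDiff ℝ n fun x => v x i) :
    ContDiff ℝ n fun x => Om (J x) β T (u x) (v x) := by
  simp only [Om]
  have hpu := smooth_proj hJ hu
  have hpv := smooth_proj hJ hv
  have he := smooth_eta hJ
  have hJu := smooth_mulVec hJ hu
  have hJv := smooth_mulVec hJ hv
  exact (((((smooth_bil β hpu hpv).add ((hu 0).mul (smooth_bil β he (smooth_mulVec hJ hpv)))).sub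
    ((hJu 0).mul (smooth_bil β he hpv))).sub
    ((hv 0).mul (smooth_bil β he (smooth_mulVec hJ hpu)))).add
    ((hJv 0).mul (smooth_bil β he hpu))).add
    (contDiff_const.mul (((hJu 0).mul (hv 0)).sub ((hu 0).mul (hJv 0))))

theorem smooth_omMat {J : X → Matrix (Fin 4) (Fin 4) ℝ}
    (hJ : ∀ i j, ContDiff ℝ n fun x => J x i j) (β : Matrix (Fin 4) (Fin 4) ℝ) (T : ℝ)
    (i j : Fin 4) : ContDiff ℝ n fun x => omMat (J x) β T i j := by
  simp only [omMat, Matrix.of_apply]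
  exact smooth_Om hJ β T (u := fun _ => Pi.single i 1) (v := fun _ => Pi.single j 1)
    (fun _ => contDiff_const) (fun _ => contDiff_const)

end Vale.Agent.Lib.P204
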