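import Mathlib
import Vale.Agent.Lib.P204.Defs
import Vale.Agent.Lib.P204.Algebra
import Vale.Agent.Lib.P204.Average
import Vale.Agent.Lib.P204.Smooth

namespace Vale.Agent.Lib.P204

open Matrix Set

/-- A matrix field depending only on the coordinate `x 0`, alternating, and constant on the
block of indices different from `0`, is closed. -/
theorem closed_of_slice (G : (Fin 4 → ℝ) → Matrix (Fin 4) (Fin 4) ℝ)
    (hsm : ∀ i j, ContDiff ℝ ((⊤ : ℕ∞) : WithTop ℕ∞) fun x => G x i j)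
    (hanti : ∀ x, (G x)ᵀ = -G x)
    (hdep : ∀ x y : Fin 4 → ℝ, x 0 = y 0 → G x = G y)
    (β : Matrix (Fin 4) (Fin 4) ℝ) (hβ : ∀ x j k, j ≠ 0 → k ≠ 0 → G x j k = β j k)
    (x : Fin 4 → ℝ) (i j k : Fin 4) :
    fderiv ℝ (fun y => G y j k) x (Pi.single i 1) + fderiv ℝ (fun y => G y k i) x (Pi.single j 1)
      + fderiv ℝ (fun y => G y i j) x (Pi.single k 1) = 0 := by
  have hdiff : ∀ b c, DifferentiableAt ℝ (fun y => G y b c) x := fun b c =>
    ((hsm b c).differentiable (by simp)) x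
  have p1 : ∀ a b c : Fin 4, a ≠ 0 →
      fderiv ℝ (fun y => G y b c) x (Pi.single a 1) = 0 := by
    intro a b c ha
    rw [← (hdiff b c).lineDeriv_eq_fderiv]
    have hconst : (fun t : ℝ => G (x + t • Pi.single a 1) b c) = fun _ => G x b c := by
      funext t
      rw [hdep (x + t • Pi.single a 1) x (by simp [Pi.single_eq_of_ne' ha])]
    simp only [lineDeriv, hconst, deriv_const]
  have p2 : ∀ a b c : Fin 4, b ≠ 0 → c ≠ 0 →
      fderiv ℝ (fun y => G y b c) x (Pi.single a 1) = 0 := by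
    intro a b c hb hc
    have hconst : (fun y => G y b c) = fun _ => β b c := funext fun y => hβ y b c hb hc
    rw [hconst]
    simp
  have p3 : ∀ a b c : Fin 4, fderiv ℝ (fun y => G y b c) x (Pi.single a 1)
      = -fderiv ℝ (fun y => G y c b) x (Pi.single a 1) := by
    intro a b c
    have hneg : (fun y => G y b c) = fun y => -G y c b := by
      funext y
      have := congrFun (congrFun (hanti y) c) b
      simpa using this
    rw [hneg, fderiv_fun_neg]
    simp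
  by_cases hi : i = 0 <;> by_cases hj : j = 0 <;> by_cases hk : k = 0
  · subst hi hj hk
    linarith [p3 0 0 0]
  · subst hi hj
    linarith [p3 0 0 k, p1 k 0 0 hk]
  · subst hi hk
    linarith [p3 0 0 j, p1 j 0 0 hj]
  · subst hi
    linarith [p2 0 j k hj hk, p1 j k 0 hj, p1 k 0 j hk]
  · subst hj hk
    linarith [p1 i 0 0 hi, p3 0 0 i]
  · subst hj
    linarith [p1 i 0 k hi, p2 0 k i hk hi, p1 k i 0 hk]
  · subst hk
    linarith [p1 i j 0 hi, p1 j 0 i hj, p2 0 i j hi hj]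
  · linarith [p1 i j k hi, p1 j k i hj, p1 k i j hk]

/-- Compactness: a continuous function positive on the zero set of a nonnegative continuous
function can be made positive by adding a large multiple of the latter. -/
theorem exists_const_pos {α : Type*} [TopologicalSpace α] {K : Set α} (hK : IsCompact K)
    {φ q : α → ℝ} (hφ : Continuous φ) (hq : Continuous q)
    (hq0 : ∀ p ∈ K, 0 ≤ q p) (hpos : ∀ p ∈ K, q p = 0 → 0 < φ p) :
    ∃ T : ℝ, ∀ p ∈ K, 0 < φ p + T * q p := by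
  have hK' : IsCompact (K ∩ φ ⁻¹' Iic 0) := hK.inter_right (isClosed_Iic.preimage hφ)
  by_cases hne : (K ∩ φ ⁻¹' Iic 0).Nonempty
  · obtain ⟨p0, hp0, hmin0⟩ := hK'.exists_isMinOn hne hq.continuousOn
    obtain ⟨p1, hp1, hmin1⟩ := hK'.exists_isMinOn hne hφ.continuousOn
    have hm : 0 < q p0 := by
      rcases (hq0 p0 hp0.1).lt_or_eq with h | h
      · exact h
      · exfalso
        have h1 := hpos p0 hp0.1 h.symm
        have h2 : φ p0 ≤ 0 := hp0.2
        linarith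
    have hc : φ p1 ≤ 0 := hp1.2
    refine ⟨(1 - φ p1) / q p0, fun p hp => ?_⟩
    have hT : 0 ≤ (1 - φ p1) / q p0 := div_nonneg (by linarith) hm.le
    by_cases hφp : φ p ≤ 0
    · have hpK : p ∈ K ∩ φ ⁻¹' Iic 0 := ⟨hp, hφp⟩
      have h1 : q p0 ≤ q p := hmin0 hpK
      have h2 : φ p1 ≤ φ p := hmin1 hpK
      have h3 : (1 - φ p1) / q p0 * q p0 ≤ (1 - φ p1) / q p0 * q p :=
        mul_le_mul_of_nonneg_left h1 hT
      have h4 : (1 - φ p1) / q p0 * q p0 = 1 - φ p1 := by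
        field_simp
      linarith
    · have h1 : 0 ≤ (1 - φ p1) / q p0 * q p := mul_nonneg hT (hq0 p hp)
      linarith [not_le.1 hφp]
  · refine ⟨0, fun p hp => ?_⟩
    have : 0 < φ p := by
      by_contra h
      exact hne ⟨p, hp, not_lt.1 h⟩
    simpa using this

theorem det_ne_zero_of_tames {A J : Matrix (Fin 4) (Fin 4) ℝ} (hJ : J * J = -1)
    (h : ∀ v : Fin 4 → ℝ, v ≠ 0 → 0 < v ⬝ᵥ (A *ᵥ (J *ᵥ v))) : A.det ≠ 0 := by
  intro hdet
  obtain ⟨w, hw, hAw⟩ := Matrix.exists_mulVec_eq_zero_iff.2 hdet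
  have hv : J *ᵥ w ≠ 0 := by
    intro h0
    have := JJ hJ w
    rw [h0, Matrix.mulVec_zero] at this
    exact hw (by simpa using this.symm)
  have h1 := h (J *ᵥ w) hv
  rw [JJ hJ, Matrix.mulVec_neg, hAw] at h1
  simp at h1

theorem dot_congr_of_zero {A B : Matrix (Fin 4) (Fin 4) ℝ}
    (h : ∀ j k, j ≠ 0 → k ≠ 0 → A j k = B j k) {v w : Fin 4 → ℝ} (hv : v 0 = 0)
    (hw : w 0 = 0) : v ⬝ᵥ A *ᵥ w = v ⬝ᵥ B *ᵥ w := by
  simp only [dotProduct, Matrix.mulVec]
  refine Finset.sum_congr rfl fun j _ => ?_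
  by_cases hj : j = 0
  · subst hj
    simp [hv]
  · congr 1
    refine Finset.sum_congr rfl fun k _ => ?_
    by_cases hk : k = 0
    · subst hk
      simp [hw]
    · rw [h j k hj hk]

/-- **Tamed implies compatible for `T³`-invariant almost complex structures on `T⁴`.** -/
theorem tamed_to_compatible (J : (Fin 4 → ℝ) → Matrix (Fin 4) (Fin 4) ℝ)
    (hJ : IsAlmostComplexStructure J)
    (hinv : ∀ x y : Fin 4 → ℝ, x 0 = y 0 → J x = J y)
    (htamed : ∃ ω, IsSymplecticForm ω ∧ Tames ω J) :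
    ∃ ω', IsSymplecticForm ω' ∧ IsCompatibleWith ω' J := by
  obtain ⟨⟨hJsm, hJper⟩, hJsq⟩ := hJ
  obtain ⟨ω, ⟨⟨hωsm, hωper⟩, hωanti, hωcl, -⟩, htame⟩ := htamed
  set β : Matrix (Fin 4) (Fin 4) ℝ := avg ω 0 with hβdef
  have hβ : βᵀ = -β := avg_transpose ω hωanti 0
  -- positivity of `β` on the complex lines `L x`
  have hL : ∀ (x v : Fin 4 → ℝ), v ≠ 0 → v 0 = 0 → (J x *ᵥ v) 0 = 0 →
      0 < bil β v (J x *ᵥ v) := by
    intro x v hv hv0 hv1
    have h1 : 0 < v ⬝ᵥ (avg ω (x 0)).mulVec (J x *ᵥ v) := by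
      refine avg_pos ω hωsm (x 0) v (J x *ᵥ v) fun y => ?_
      have h2 := htame (Fin.insertNth 0 (x 0) y) v hv
      rwa [hinv (Fin.insertNth 0 (x 0) y) x (by simp)] at h2
    rw [dot_congr_of_zero (B := β)
      (fun j k hj hk => avg_eq ω hωsm (fun x n _ => hωper x n) hωcl hj hk (x 0) 0) hv0 hv1] at h1
    exact h1
  -- the one-variable almost complex structure
  set J1 : ℝ → Matrix (Fin 4) (Fin 4) ℝ := fun t => J fun _ => t with hJ1
  have hJx : ∀ x : Fin 4 → ℝ, J x = J1 (x 0) := fun x => hinv x _ rfl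
  have hJ1per : ∀ (t : ℝ) (m : ℤ), J1 (t + m) = J1 t := by
    intro t m
    exact hJper (fun _ => t) (fun _ => m)
  have hJ1sq : ∀ t, J1 t * J1 t = -1 := fun t => hJsq _
  have hJ1cont : ∀ i j, Continuous fun p : ℝ × (Fin 4 → ℝ) => J1 p.1 i j := by
    intro i j
    have h1 : Continuous fun p : ℝ × (Fin 4 → ℝ) => (fun _ : Fin 4 => p.1) :=
      continuous_pi fun _ => continuous_fst
    exact (hJsm i j).continuous.comp h1
  have hJ1sm : ∀ i j, ContDiff ℝ 0 fun p : ℝ × (Fin 4 → ℝ) => J1 p.1 i j := fun i j =>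
    contDiff_zero.2 (hJ1cont i j)
  have hsnd : ∀ i, ContDiff ℝ 0 fun p : ℝ × (Fin 4 → ℝ) => p.2 i := fun i =>
    contDiff_zero.2 ((continuous_apply i).comp continuous_snd)
  -- compactness
  obtain ⟨T, hT⟩ := exists_const_pos
    (K := Icc (0 : ℝ) 1 ×ˢ Metric.sphere (0 : Fin 4 → ℝ) 1)
    (φ := fun p => Om (J1 p.1) β 0 p.2 (J1 p.1 *ᵥ p.2))
    (q := fun p => p.2 0 ^ 2 + (J1 p.1 *ᵥ p.2) 0 ^ 2)
    (isCompact_Icc.prod (isCompact_sphere 0 1))
    (contDiff_zero.1 (smooth_Om hJ1sm β 0 hsnd (smooth_mulVec hJ1sm hsnd)))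
    (contDiff_zero.1 (((hsnd 0).pow 2).add ((smooth_mulVec hJ1sm hsnd 0).pow 2)))
    (fun p _ => by positivity)
    (fun p hp hq => by
      have hv0 : p.2 0 = 0 := by nlinarith [sq_nonneg (p.2 0), sq_nonneg ((J1 p.1 *ᵥ p.2) 0)]
      have hv1 : (J1 p.1 *ᵥ p.2) 0 = 0 := by
        nlinarith [sq_nonneg (p.2 0), sq_nonneg ((J1 p.1 *ᵥ p.2) 0)]
      have hv : p.2 ≠ 0 := by
        intro h0
        have h1 : ‖p.2‖ = 1 := by simpa using hp.2
        rw [h0, norm_zero] at h1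
        exact zero_ne_one h1
      show 0 < Om (J1 p.1) β 0 p.2 (J1 p.1 *ᵥ p.2)
      rw [Om_mem (hJ1sq p.1) β hv0 hv1]
      exact hL (fun _ => p.1) p.2 hv hv0 hv1)
  -- the compatible form
  have htame' : ∀ (x v : Fin 4 → ℝ), v ≠ 0 →
      0 < v ⬝ᵥ (omMat (J x) β T *ᵥ (J x *ᵥ v)) := by
    intro x v hv
    rw [dot_omMat, hJx x]
    have hfr : J1 (x 0) = J1 (Int.fract (x 0)) := by
      have := hJ1per (Int.fract (x 0)) ⌊x 0⌋
      rw [Int.fract_add_floor] at this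
      exact this
    rw [hfr]
    set t := Int.fract (x 0) with ht
    have hn : 0 < ‖v‖ := norm_pos_iff.2 hv
    set v' : Fin 4 → ℝ := ‖v‖⁻¹ • v with hv'
    have hvv : v = ‖v‖ • v' := by
      rw [hv', smul_inv_smul₀ hn.ne']
    have hmem : (t, v') ∈ Icc (0 : ℝ) 1 ×ˢ Metric.sphere (0 : Fin 4 → ℝ) 1 := by
      refine ⟨⟨Int.fract_nonneg _, (Int.fract_lt_one _).le⟩, ?_⟩
      simp only [mem_sphere_iff_norm, sub_zero, hv', norm_smul, norm_inv, norm_norm]
      exact inv_mul_cancel₀ hn.ne'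
    have h1 := hT (t, v') hmem
    simp only at h1
    rw [hvv, Matrix.mulVec_smul, Om_smul_left, Om_smul_right, Om_tame (hJ1sq t)]
    have h2 : 0 < ‖v‖ * ‖v‖ := mul_pos hn hn
    nlinarith [mul_pos h2 h1]
  refine ⟨fun x => omMat (J x) β T, ⟨⟨fun i j => smooth_omMat hJsm β T i j, fun x n => ?_⟩,
    fun x => omMat_transpose hβ (J x) T, ?_, fun x => ?_⟩, htame', fun x => omMat_J (hJsq x) hβ T⟩
  · simp only [hJper x n]
  · exact closed_of_slice (fun x => omMat (J x) β T) (fun i j => smooth_omMat hJsm β T i j)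
      (fun x => omMat_transpose hβ (J x) T) (fun x y hxy => by simp only [hinv x y hxy]) β
      (fun x j k hj hk => omMat_apply_of_ne hβ (J x) T hj hk)
  · exact det_ne_zero_of_tames (hJsq x) (htame' x)

end Vale.Agent.Lib.P204
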