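import Mathlib
import Vale.Agent.Lib.P204.Defs

namespace Vale.Agent.Lib.P204

open Matrix

/-- The deck transformation `x ↦ M x + e₀` of `ℝ⁴` attached to an integer matrix `M`. -/
def deck (M : Matrix (Fin 4) (Fin 4) ℤ) (x : Fin 4 → ℝ) : Fin 4 → ℝ :=
  M.map (Int.cast : ℤ → ℝ) *ᵥ x + Pi.single 0 1

/-- A smooth almost complex structure on the torus bundle
`X_M = ℝ⁴ / ⟨x ↦ x + n (n ∈ 0 × ℤ³), x ↦ M x + e₀⟩`, written as a field of matrices on the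
universal cover `ℝ⁴` that is invariant under the deck group. -/
def IsAlmostComplexStructureOn (M : Matrix (Fin 4) (Fin 4) ℤ)
    (J : (Fin 4 → ℝ) → Matrix (Fin 4) (Fin 4) ℝ) : Prop :=
  (∀ i j : Fin 4, ContDiff ℝ ((⊤ : ℕ∞) : WithTop ℕ∞) (fun x => J x i j)) ∧
    (∀ (x : Fin 4 → ℝ) (n : Fin 4 → ℤ), n 0 = 0 → J (fun i => x i + (n i : ℝ)) = J x) ∧
    (∀ x, J (deck M x) * M.map (Int.cast : ℤ → ℝ) = M.map (Int.cast : ℤ → ℝ) * J x) ∧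
    ∀ x, J x * J x = -1

/-- A smooth symplectic form on the torus bundle `X_M`, written as a deck-invariant field of
alternating matrices on `ℝ⁴` (`ω_x(u, v) = u ⬝ᵥ ω x *ᵥ v`) which is closed and nondegenerate. -/
def IsSymplecticFormOn (M : Matrix (Fin 4) (Fin 4) ℤ)
    (ω : (Fin 4 → ℝ) → Matrix (Fin 4) (Fin 4) ℝ) : Prop :=
  (∀ i j : Fin 4, ContDiff ℝ ((⊤ : ℕ∞) : WithTop ℕ∞) (fun x => ω x i j)) ∧
    (∀ (x : Fin 4 → ℝ) (n : Fin 4 → ℤ), n 0 = 0 → ω (fun i => x i + (n i : ℝ)) = ω x) ∧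
    (∀ x, (M.map (Int.cast : ℤ → ℝ))ᵀ * ω (deck M x) * M.map (Int.cast : ℤ → ℝ) = ω x) ∧
    (∀ x, (ω x)ᵀ = -ω x) ∧
    (∀ (x : Fin 4 → ℝ) (i j k : Fin 4),
      fderiv ℝ (fun y => ω y j k) x (Pi.single i 1) + fderiv ℝ (fun y => ω y k i) x (Pi.single j 1)
        + fderiv ℝ (fun y => ω y i j) x (Pi.single k 1) = 0) ∧
    ∀ x, (ω x).det ≠ 0

end Vale.Agent.Lib.P204
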