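import Mathlib

namespace Vale.Agent.Lib.P204

open MeasureTheory Set Matrix

theorem isAddFundamentalDomain_congr {E : Type*} [AddCommGroup E] [MeasurableSpace E]
    {L L' : Submodule ℤ E} (hL : L = L') {s : Set E} {μ : Measure E}
    (h : IsAddFundamentalDomain L s μ) : IsAddFundamentalDomain L' s μ := by
  subst hL
  exact h

/-- The integral over the unit cube of a `ℤ³`-periodic function is invariant under
precomposition with a unimodular integer matrix. -/
theorem integral_comp_unimodular (A : Matrix (Fin 3) (Fin 3) ℤ) (hA : A.det = 1)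
    (h : (Fin 3 → ℝ) → ℝ)
    (hper : ∀ (y : Fin 3 → ℝ) (n : Fin 3 → ℤ), h (fun i => y i + n i) = h y) :
    ∫ y in Icc (0 : Fin 3 → ℝ) 1, h ((A.map (Int.cast : ℤ → ℝ)) *ᵥ y)
      = ∫ y in Icc (0 : Fin 3 → ℝ) 1, h y := by
  set Ar : Matrix (Fin 3) (Fin 3) ℝ := A.map (Int.cast : ℤ → ℝ) with hAr
  set Br : Matrix (Fin 3) (Fin 3) ℝ := A.adjugate.map (Int.cast : ℤ → ℝ) with hBr
  have hdet : Ar.det = 1 := by
    rw [hAr, ← Int.cast_det, hA, Int.cast_one]
  have hAB : Ar * Br = 1 := by
    have h1 : (Int.castRingHom ℝ).mapMatrix (A * A.adjugate)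
        = (Int.castRingHom ℝ).mapMatrix (A.det • (1 : Matrix (Fin 3) (Fin 3) ℤ)) := by
      rw [Matrix.mul_adjugate]
    rw [map_mul, hA, one_smul, map_one] at h1
    exact h1
  have hBA : Br * Ar = 1 := by
    have h1 : (Int.castRingHom ℝ).mapMatrix (A.adjugate * A)
        = (Int.castRingHom ℝ).mapMatrix (A.det • (1 : Matrix (Fin 3) (Fin 3) ℤ)) := by
      rw [Matrix.adjugate_mul]
    rw [map_mul, hA, one_smul, map_one] at h1
    exact h1
  let f : (Fin 3 → ℝ) ≃ₗ[ℝ] (Fin 3 → ℝ) :=
    { toFun := fun y => Ar *ᵥ y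
      invFun := fun y => Br *ᵥ y
      map_add' := Matrix.mulVec_add _
      map_smul' := fun c y => by simp [Matrix.mulVec_smul]
      left_inv := fun y => by simp [Matrix.mulVec_mulVec, hBA]
      right_inv := fun y => by simp [Matrix.mulVec_mulVec, hAB] }
  have hf : ∀ y, f y = Ar *ᵥ y := fun y => rfl
  set b₁ := Pi.basisFun ℝ (Fin 3) with hb₁
  have hmem : ∀ v : Fin 3 → ℝ, v ∈ Submodule.span ℤ (Set.range b₁) ↔
      ∀ i, ∃ n : ℤ, (n : ℝ) = v i := by
    intro v
    rw [b₁.mem_span_iff_repr_mem ℤ]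
    simp [hb₁]
  have hspan : Submodule.span ℤ (Set.range (b₁.map f)) = Submodule.span ℤ (Set.range b₁) := by
    rw [← ZSpan.map]
    ext v
    rw [Submodule.mem_map]
    constructor
    · rintro ⟨u, hu, rfl⟩
      rw [hmem] at hu ⊢
      choose n hn using hu
      intro i
      refine ⟨∑ j, A i j * n j, ?_⟩
      simp [hf, hAr, Matrix.mulVec, dotProduct, hn]
    · intro hv
      refine ⟨Br *ᵥ v, ?_, ?_⟩
      · rw [hmem] at hv ⊢
        choose n hn using hv
        intro i
        refine ⟨∑ j, A.adjugate i j * n j, ?_⟩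
        simp [hBr, Matrix.mulVec, dotProduct, hn]
      · simp [hf, Matrix.mulVec_mulVec, hAB]
  have hfd1 : IsAddFundamentalDomain (Submodule.span ℤ (Set.range b₁))
      (ZSpan.fundamentalDomain b₁) volume := ZSpan.isAddFundamentalDomain b₁ volume
  have hfd2 : IsAddFundamentalDomain (Submodule.span ℤ (Set.range b₁))
      (f '' ZSpan.fundamentalDomain b₁) volume := by
    rw [ZSpan.map_fundamentalDomain]
    exact isAddFundamentalDomain_congr hspan (ZSpan.isAddFundamentalDomain (b₁.map f) volume)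
  have : VAddInvariantMeasure (Submodule.span ℤ (Set.range b₁)) (Fin 3 → ℝ) volume :=
    inferInstanceAs <| VAddInvariantMeasure (Submodule.span ℤ (Set.range b₁)).toAddSubgroup
      (Fin 3 → ℝ) volume
  have hinv : ∀ (g : Submodule.span ℤ (Set.range b₁)) (x : Fin 3 → ℝ), h (g +ᵥ x) = h x := by
    intro g x
    choose n hn using (hmem g).1 g.2
    have e1 : g +ᵥ x = fun i => x i + n i := by
      funext i
      rw [hn i]
      simp [Submodule.vadd_def, add_comm]
    rw [e1, hper]
  have hcoe : (f : (Fin 3 → ℝ) → (Fin 3 → ℝ)) = Matrix.toLin' Ar := by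
    funext y
    rw [hf, Matrix.toLin'_apply]
  have hmp : MeasurePreserving f volume volume := by
    refine ⟨?_, ?_⟩
    · exact (LinearMap.continuous_of_finiteDimensional f.toLinearMap).measurable
    · rw [hcoe, Real.map_matrix_volume_pi_eq_smul_volume_pi (by rw [hdet]; norm_num), hdet]
      simp
  have hemb : MeasurableEmbedding f :=
    f.toContinuousLinearEquiv.toHomeomorph.measurableEmbedding
  have hIcc : ∀ k : (Fin 3 → ℝ) → ℝ, ∫ y in Icc (0 : Fin 3 → ℝ) 1, k y
      = ∫ y in ZSpan.fundamentalDomain b₁, k y := by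
    intro k
    rw [hb₁, ZSpan.fundamentalDomain_pi_basisFun]
    exact (setIntegral_congr_set
      (Measure.univ_pi_Ico_ae_eq_Icc (f := (0 : Fin 3 → ℝ)) (g := 1))).symm
  rw [hIcc, hIcc h]
  calc ∫ y in ZSpan.fundamentalDomain b₁, h (Ar *ᵥ y)
      = ∫ z in f '' ZSpan.fundamentalDomain b₁, h z :=
        (MeasurePreserving.setIntegral_image_emb hmp hemb h _).symm
    _ = ∫ z in ZSpan.fundamentalDomain b₁, h z := (hfd1.setIntegral_eq hfd2 hinv).symm

end Vale.Agent.Lib.P204
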