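import Mathlib
import Vale.Agent.Lib.P204.Defs
import Vale.Agent.Lib.P204.DefsBundle
import Vale.Agent.Lib.P204.Algebra
import Vale.Agent.Lib.P204.Average
import Vale.Agent.Lib.P204.Smooth
import Vale.Agent.Lib.P204.Unimodular
import Vale.Agent.Lib.P204.Main

namespace Vale.Agent.Lib.P204

open Matrix Set MeasureTheory

section naturality

variable {J J' N : Matrix (Fin 4) (Fin 4) ℝ}

theorem JN_mulVec (hJN : J' * N = N * J) (u : Fin 4 → ℝ) :
    J' *ᵥ (N *ᵥ u) = N *ᵥ (J *ᵥ u) := by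
  rw [Matrix.mulVec_mulVec, hJN, ← Matrix.mulVec_mulVec]

theorem J00_nat (hN0 : N *ᵥ Pi.single 0 1 = Pi.single 0 1)
    (hNr : ∀ u : Fin 4 → ℝ, (N *ᵥ u) 0 = u 0) (hJN : J' * N = N * J) : J' 0 0 = J 0 0 := by
  have h1 : (J' *ᵥ (N *ᵥ Pi.single 0 1)) 0 = (N *ᵥ (J *ᵥ Pi.single 0 1)) 0 := by
    rw [JN_mulVec hJN]
  rw [hN0, hNr] at h1
  simpa [Matrix.mulVec_single_one] using h1

theorem xi_nat (hN0 : N *ᵥ Pi.single 0 1 = Pi.single 0 1)
    (hNr : ∀ u : Fin 4 → ℝ, (N *ᵥ u) 0 = u 0) (hJN : J' * N = N * J) :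
    xi J' = N *ᵥ xi J := by
  unfold xi
  rw [J00_nat hN0 hNr hJN, Matrix.mulVec_smul, Matrix.mulVec_add, Matrix.mulVec_smul, hN0,
    ← JN_mulVec hJN, hN0]

theorem eta_nat (hN0 : N *ᵥ Pi.single 0 1 = Pi.single 0 1)
    (hNr : ∀ u : Fin 4 → ℝ, (N *ᵥ u) 0 = u 0) (hJN : J' * N = N * J) :
    eta J' = N *ᵥ eta J := by
  unfold eta
  rw [xi_nat hN0 hNr hJN, JN_mulVec hJN]

theorem proj_nat (hN0 : N *ᵥ Pi.single 0 1 = Pi.single 0 1)
    (hNr : ∀ u : Fin 4 → ℝ, (N *ᵥ u) 0 = u 0) (hJN : J' * N = N * J) (u : Fin 4 → ℝ) :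
    proj J' (N *ᵥ u) = N *ᵥ proj J u := by
  unfold proj
  rw [hNr, JN_mulVec hJN, hNr, xi_nat hN0 hNr hJN, eta_nat hN0 hNr hJN]
  simp only [Matrix.mulVec_add, Matrix.mulVec_sub, Matrix.mulVec_smul]

theorem bil_nat (N β : Matrix (Fin 4) (Fin 4) ℝ) (a b : Fin 4 → ℝ) :
    bil β (N *ᵥ a) (N *ᵥ b) = bil (Nᵀ * β * N) a b := by
  simp only [bil]
  rw [← Matrix.mulVec_mulVec, ← Matrix.mulVec_mulVec, Matrix.dotProduct_mulVec _ Nᵀ,
    Matrix.vecMul_transpose]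

theorem Om_nat (hN0 : N *ᵥ Pi.single 0 1 = Pi.single 0 1)
    (hNr : ∀ u : Fin 4 → ℝ, (N *ᵥ u) 0 = u 0) (hJN : J' * N = N * J)
    (β : Matrix (Fin 4) (Fin 4) ℝ) (T : ℝ) (u v : Fin 4 → ℝ) :
    Om J' β T (N *ᵥ u) (N *ᵥ v) = Om J (Nᵀ * β * N) T u v := by
  simp only [Om, proj_nat hN0 hNr hJN, JN_mulVec hJN, hNr, eta_nat hN0 hNr hJN, bil_nat]

end naturality

theorem Om_congr {J : Matrix (Fin 4) (Fin 4) ℝ} (hJ : J * J = -1)
    {β β' : Matrix (Fin 4) (Fin 4) ℝ} (h : ∀ j k, j ≠ 0 → k ≠ 0 → β j k = β' j k) (T : ℝ)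
    (u v : Fin 4 → ℝ) : Om J β T u v = Om J β' T u v := by
  simp only [Om, bil]
  rw [dot_congr_of_zero h (proj_zero hJ u) (proj_zero hJ v),
    dot_congr_of_zero h (eta_zero hJ) (Jproj_zero hJ v),
    dot_congr_of_zero h (eta_zero hJ) (proj_zero hJ v),
    dot_congr_of_zero h (eta_zero hJ) (Jproj_zero hJ u),
    dot_congr_of_zero h (eta_zero hJ) (proj_zero hJ u)]

/-- Compactness plus homogeneity: a parameter `T` making `Om` tame for all `t ∈ [0, 1]`. -/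
theorem exists_T_unit_interval (J1 : ℝ → Matrix (Fin 4) (Fin 4) ℝ)
    (hJ1cont : ∀ i j, Continuous fun t => J1 t i j) (hJ1sq : ∀ t, J1 t * J1 t = -1)
    (β : Matrix (Fin 4) (Fin 4) ℝ)
    (hL : ∀ (t : ℝ) (v : Fin 4 → ℝ), v ≠ 0 → v 0 = 0 → (J1 t *ᵥ v) 0 = 0 →
      0 < bil β v (J1 t *ᵥ v)) :
    ∃ T : ℝ, ∀ t ∈ Icc (0 : ℝ) 1, ∀ v : Fin 4 → ℝ, v ≠ 0 →
      0 < Om (J1 t) β T v (J1 t *ᵥ v) := by
  have hJ1sm : ∀ i j, ContDiff ℝ 0 fun p : ℝ × (Fin 4 → ℝ) => J1 p.1 i j := fun i j =>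
    contDiff_zero.2 ((hJ1cont i j).comp continuous_fst)
  have hsnd : ∀ i, ContDiff ℝ 0 fun p : ℝ × (Fin 4 → ℝ) => p.2 i := fun i =>
    contDiff_zero.2 ((continuous_apply i).comp continuous_snd)
  obtain ⟨T, hT⟩ := exists_const_pos
    (K := Icc (0 : ℝ) 1 ×ˢ Metric.sphere (0 : Fin 4 → ℝ) 1)
    (φ := fun p => Om (J1 p.1) β 0 p.2 (J1 p.1 *ᵥ p.2))
    (q := fun p => p.2 0 ^ 2 + (J1 p.1 *ᵥ p.2) 0 ^ 2)
    (isCompact_Icc.prod (isCompact_sphere 0 1))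
    (contDiff_zero.1 (smooth_Om hJ1sm β 0 hsnd (smooth_mulVec hJ1sm hsnd)))
    (contDiff_zero.1 (((hsnd 0).pow 2).add ((smooth_mulVec hJ1sm hsnd 0).pow 2)))
    (fun p _ => by positivity)
    (fun p hp hq => by
      have hv0 : p.2 0 = 0 := by nlinarith [sq_nonneg (p.2 0), sq_nonneg ((J1 p.1 *ᵥ p.2) 0)]
      have hv1 : (J1 p.1 *ᵥ p.2) 0 = 0 := by
        nlinarith [sq_nonneg (p.2 0), sq_nonneg ((J1 p.1 *ᵥ p.2) 0)]
      have hv : p.2 ≠ 0 := by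
        intro h0
        have h1 : ‖p.2‖ = 1 := by simpa using hp.2
        rw [h0, norm_zero] at h1
        exact zero_ne_one h1
      show 0 < Om (J1 p.1) β 0 p.2 (J1 p.1 *ᵥ p.2)
      rw [Om_mem (hJ1sq p.1) β hv0 hv1]
      exact hL p.1 p.2 hv hv0 hv1)
  refine ⟨T, fun t ht v hv => ?_⟩
  have hn : 0 < ‖v‖ := norm_pos_iff.2 hv
  set v' : Fin 4 → ℝ := ‖v‖⁻¹ • v with hv'
  have hvv : v = ‖v‖ • v' := by
    rw [hv', smul_inv_smul₀ hn.ne']
  have hmem : (t, v') ∈ Icc (0 : ℝ) 1 ×ˢ Metric.sphere (0 : Fin 4 → ℝ) 1 := by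
    refine ⟨ht, ?_⟩
    simp only [mem_sphere_iff_norm, sub_zero, hv', norm_smul, norm_inv, norm_norm]
    exact inv_mul_cancel₀ hn.ne'
  have h1 := hT (t, v') hmem
  simp only at h1
  rw [hvv, Matrix.mulVec_smul, Om_smul_left, Om_smul_right, Om_tame (hJ1sq t)]
  have h2 : 0 < ‖v‖ * ‖v‖ := mul_pos hn hn
  nlinarith [mul_pos h2 h1]

theorem cast_mul_adjugate (A : Matrix (Fin 4) (Fin 4) ℤ) (hA : A.det = 1) :
    A.map (Int.cast : ℤ → ℝ) * A.adjugate.map (Int.cast : ℤ → ℝ) = 1 := by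
  have h1 : (Int.castRingHom ℝ).mapMatrix (A * A.adjugate)
      = (Int.castRingHom ℝ).mapMatrix (A.det • (1 : Matrix (Fin 4) (Fin 4) ℤ)) := by
    rw [Matrix.mul_adjugate]
  rw [map_mul, hA, one_smul, map_one] at h1
  exact h1

theorem cast_adjugate_mul (A : Matrix (Fin 4) (Fin 4) ℤ) (hA : A.det = 1) :
    A.adjugate.map (Int.cast : ℤ → ℝ) * A.map (Int.cast : ℤ → ℝ) = 1 := by
  have h1 : (Int.castRingHom ℝ).mapMatrix (A.adjugate * A)
      = (Int.castRingHom ℝ).mapMatrix (A.det • (1 : Matrix (Fin 4) (Fin 4) ℤ)) := by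
    rw [Matrix.adjugate_mul]
  rw [map_mul, hA, one_smul, map_one] at h1
  exact h1

/-- The lower right `3 × 3` block of `M`. -/
def lowerBlock (M : Matrix (Fin 4) (Fin 4) ℤ) : Matrix (Fin 3) (Fin 3) ℤ :=
  M.submatrix Fin.succ Fin.succ

theorem lowerBlock_det (M : Matrix (Fin 4) (Fin 4) ℤ) (h00 : M 0 0 = 1)
    (hrow : ∀ j, j ≠ 0 → M 0 j = 0) : (lowerBlock M).det = M.det := by
  rw [Matrix.det_succ_row_zero M, Fin.sum_univ_succ]
  have hz : ∀ j : Fin 3, (-1 : ℤ) ^ (j.succ : ℕ) * M 0 j.succ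
      * (M.submatrix Fin.succ j.succ.succAbove).det = 0 := by
    intro j
    rw [hrow j.succ (Fin.succ_ne_zero j)]
    simp
  simp only [hz, Finset.sum_const_zero, add_zero, h00, Fin.val_zero, pow_zero, one_mul,
    Fin.succAbove_zero]
  rfl

theorem cast_mulVec_single (M : Matrix (Fin 4) (Fin 4) ℤ) (h00 : M 0 0 = 1)
    (hcol : ∀ i, i ≠ 0 → M i 0 = 0) :
    M.map (Int.cast : ℤ → ℝ) *ᵥ Pi.single 0 1 = Pi.single 0 1 := by
  funext i
  rw [Matrix.mulVec_single_one]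
  by_cases hi : i = 0
  · subst hi
    simp [h00]
  · simp [hcol i hi, Pi.single_eq_of_ne hi]

theorem cast_mulVec_zero (M : Matrix (Fin 4) (Fin 4) ℤ) (h00 : M 0 0 = 1)
    (hrow : ∀ j, j ≠ 0 → M 0 j = 0) (u : Fin 4 → ℝ) :
    (M.map (Int.cast : ℤ → ℝ) *ᵥ u) 0 = u 0 := by
  simp only [Matrix.mulVec, dotProduct, Matrix.map_apply]
  rw [Fin.sum_univ_succ]
  have hz : ∀ j : Fin 3, ((M 0 j.succ : ℤ) : ℝ) * u j.succ = 0 := by
    intro j
    rw [hrow j.succ (Fin.succ_ne_zero j)]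
    simp
  simp [hz, h00]

theorem deck_zero (M : Matrix (Fin 4) (Fin 4) ℤ) (h00 : M 0 0 = 1)
    (hrow : ∀ j, j ≠ 0 → M 0 j = 0) (x : Fin 4 → ℝ) : deck M x 0 = x 0 + 1 := by
  simp [deck, cast_mulVec_zero M h00 hrow]

theorem deck_insertNth (M : Matrix (Fin 4) (Fin 4) ℤ) (h00 : M 0 0 = 1)
    (hrow : ∀ j, j ≠ 0 → M 0 j = 0) (hcol : ∀ i, i ≠ 0 → M i 0 = 0) (t : ℝ)
    (y : Fin 3 → ℝ) :
    deck M (Fin.insertNth 0 t y)
      = Fin.insertNth 0 (t + 1) ((lowerBlock M).map (Int.cast : ℤ → ℝ) *ᵥ y) := by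
  funext i
  refine Fin.cases ?_ (fun i => ?_) i
  · rw [deck_zero M h00 hrow]
    simp
  · simp only [deck, Pi.add_apply, Matrix.mulVec, dotProduct, Matrix.map_apply, lowerBlock,
      Matrix.submatrix_apply, Fin.insertNth_zero', Fin.cons_succ]
    rw [Fin.sum_univ_succ]
    simp [hcol i.succ (Fin.succ_ne_zero i)]

theorem continuous_insertNth_mulVec (A : Matrix (Fin 3) (Fin 3) ℝ) (t : ℝ) :
    Continuous fun y : Fin 3 → ℝ => (Fin.insertNth 0 t (A *ᵥ y) : Fin 4 → ℝ) := by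
  apply continuous_pi
  intro i
  refine Fin.cases ?_ (fun i => ?_) i
  · simpa using continuous_const
  · simp only [Fin.insertNth_zero', Fin.cons_succ, Matrix.mulVec, dotProduct]
    exact continuous_finsetSum _ fun j _ => continuous_const.mul (continuous_apply j)

/-- Behaviour of the slice average under the deck transformation. -/
theorem avg_deck (M : Matrix (Fin 4) (Fin 4) ℤ) (hdet : M.det = 1) (h00 : M 0 0 = 1)
    (hrow : ∀ j, j ≠ 0 → M 0 j = 0) (hcol : ∀ i, i ≠ 0 → M i 0 = 0)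
    (F : (Fin 4 → ℝ) → Matrix (Fin 4) (Fin 4) ℝ)
    (hsm : ∀ i j, ContDiff ℝ ((⊤ : ℕ∞) : WithTop ℕ∞) fun x => F x i j)
    (hper : ∀ (x : Fin 4 → ℝ) (n : Fin 4 → ℤ), n 0 = 0 → F (fun i => x i + n i) = F x)
    (hdeck : ∀ x, (M.map (Int.cast : ℤ → ℝ))ᵀ * F (deck M x) * M.map (Int.cast : ℤ → ℝ) = F x)
    (t : ℝ) (j k : Fin 4) :
    avg F t j k
      = ((M.map (Int.cast : ℤ → ℝ))ᵀ * avg F (t + 1) * M.map (Int.cast : ℤ → ℝ)) j k := by
  set Mr : Matrix (Fin 4) (Fin 4) ℝ := M.map (Int.cast : ℤ → ℝ) with hMr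
  set Ar : Matrix (Fin 3) (Fin 3) ℝ := (lowerBlock M).map (Int.cast : ℤ → ℝ) with hAr
  have hAdet : (lowerBlock M).det = 1 := by rw [lowerBlock_det M h00 hrow, hdet]
  have h1 : ∀ y : Fin 3 → ℝ, F (Fin.insertNth 0 t y) j k
      = ∑ b, (∑ a, Mr a j * F (Fin.insertNth 0 (t + 1) (Ar *ᵥ y)) a b) * Mr b k := by
    intro y
    conv_lhs => rw [← hdeck (Fin.insertNth 0 t y)]
    rw [deck_insertNth M h00 hrow hcol]
    simp only [Matrix.mul_apply, Matrix.transpose_apply]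
    rfl
  have hcov : ∀ a b : Fin 4,
      ∫ y in Icc (0 : Fin 3 → ℝ) 1, F (Fin.insertNth 0 (t + 1) (Ar *ᵥ y)) a b
        = ∫ y in Icc (0 : Fin 3 → ℝ) 1, F (Fin.insertNth 0 (t + 1) y) a b := by
    intro a b
    refine integral_comp_unimodular (lowerBlock M) hAdet
      (fun y => F (Fin.insertNth 0 (t + 1) y) a b) fun y n => ?_
    have e1 : (Fin.insertNth 0 (t + 1) (fun i => y i + (n i : ℝ)) : Fin 4 → ℝ)
        = fun l => (Fin.insertNth 0 (t + 1) y : Fin 4 → ℝ) l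
          + (((Fin.cons 0 n : Fin 4 → ℤ) l : ℤ) : ℝ) := by
      funext l
      refine Fin.cases ?_ (fun l => ?_) l
      · simp
      · simp
    rw [e1, hper _ _ (by simp)]
  have hint : ∀ a b : Fin 4, IntegrableOn
      (fun y : Fin 3 → ℝ => F (Fin.insertNth 0 (t + 1) (Ar *ᵥ y)) a b)
      (Icc (0 : Fin 3 → ℝ) 1) := fun a b =>
    ((hsm a b).continuous.comp (continuous_insertNth_mulVec Ar (t + 1))).integrableOn_Icc
  simp only [avg, Matrix.of_apply, Matrix.mul_apply, Matrix.transpose_apply]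
  simp only [h1]
  rw [integral_finsetSum _ (fun b _ => ?_)]
  · refine Finset.sum_congr rfl fun b _ => ?_
    rw [integral_mul_const, integral_finsetSum _ (fun a _ => ?_)]
    · congr 1
      refine Finset.sum_congr rfl fun a _ => ?_
      rw [integral_const_mul, hcov]
    · exact (hint a b).const_mul _
  · exact (integrable_finsetSum _ fun a _ => (hint a b).const_mul _).mul_const _

/-- **Tamed implies compatible for fibrewise translation invariant almost complex structures on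
the torus bundle over the circle with monodromy `M`.** -/
theorem tamed_to_compatible_bundle (M : Matrix (Fin 4) (Fin 4) ℤ) (hdet : M.det = 1)
    (h00 : M 0 0 = 1) (hrow : ∀ j, j ≠ 0 → M 0 j = 0) (hcol : ∀ i, i ≠ 0 → M i 0 = 0)
    (J : (Fin 4 → ℝ) → Matrix (Fin 4) (Fin 4) ℝ)
    (hJ : IsAlmostComplexStructureOn M J)
    (hinv : ∀ x y : Fin 4 → ℝ, x 0 = y 0 → J x = J y)
    (htamed : ∃ ω, IsSymplecticFormOn M ω ∧ Tames ω J) :
    ∃ ω', IsSymplecticFormOn M ω' ∧ IsCompatibleWith ω' J := by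
  obtain ⟨hJsm, hJper, hJdeck, hJsq⟩ := hJ
  obtain ⟨ω, ⟨hωsm, hωper, hωdeck, hωanti, hωcl, -⟩, htame⟩ := htamed
  set Mr : Matrix (Fin 4) (Fin 4) ℝ := M.map (Int.cast : ℤ → ℝ) with hMr
  have hN0 : Mr *ᵥ Pi.single 0 1 = Pi.single 0 1 := cast_mulVec_single M h00 hcol
  have hNr : ∀ u : Fin 4 → ℝ, (Mr *ᵥ u) 0 = u 0 := cast_mulVec_zero M h00 hrow
  set β : Matrix (Fin 4) (Fin 4) ℝ := avg ω 0 with hβdef
  have hβ : βᵀ = -β := avg_transpose ω hωanti 0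
  have hL : ∀ (x v : Fin 4 → ℝ), v ≠ 0 → v 0 = 0 → (J x *ᵥ v) 0 = 0 →
      0 < bil β v (J x *ᵥ v) := by
    intro x v hv hv0 hv1
    have h1 : 0 < v ⬝ᵥ (avg ω (x 0)).mulVec (J x *ᵥ v) := by
      refine avg_pos ω hωsm (x 0) v (J x *ᵥ v) fun y => ?_
      have h2 := htame (Fin.insertNth 0 (x 0) y) v hv
      rwa [hinv (Fin.insertNth 0 (x 0) y) x (by simp)] at h2
    rw [dot_congr_of_zero (B := β)
      (fun j k hj hk => avg_eq ω hωsm hωper hωcl hj hk (x 0) 0) hv0 hv1] at h1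
    exact h1
  have hβinv : ∀ j k, j ≠ 0 → k ≠ 0 → (Mrᵀ * β * Mr) j k = β j k := by
    intro j k hj hk
    have h1 := avg_deck M hdet h00 hrow hcol ω hωsm hωper hωdeck 0 j k
    rw [hβdef, h1]
    simp only [Matrix.mul_apply, Matrix.transpose_apply]
    refine Finset.sum_congr rfl fun b _ => ?_
    by_cases hb : b = 0
    · subst hb
      simp [hMr, hrow k hk]
    · congr 1
      refine Finset.sum_congr rfl fun a _ => ?_
      by_cases ha : a = 0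
      · subst ha
        simp [hMr, hrow j hj]
      · rw [avg_eq ω hωsm hωper hωcl ha hb 0 (0 + 1)]
  set J1 : ℝ → Matrix (Fin 4) (Fin 4) ℝ := fun t => J fun _ => t with hJ1
  have hJx : ∀ x : Fin 4 → ℝ, J x = J1 (x 0) := fun x => hinv x _ rfl
  have hJ1sq : ∀ t, J1 t * J1 t = -1 := fun t => hJsq _
  have hJ1cont : ∀ i j, Continuous fun t => J1 t i j := fun i j =>
    (hJsm i j).continuous.comp (continuous_pi fun _ => continuous_id)
  have hJ1deck : ∀ t, J1 (t + 1) * Mr = Mr * J1 t := by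
    intro t
    have h1 := hJdeck (fun _ => t)
    rw [hJx (deck M fun _ => t), deck_zero M h00 hrow] at h1
    exact h1
  obtain ⟨T, hT⟩ := exists_T_unit_interval J1 hJ1cont hJ1sq β
    (fun t v hv hv0 hv1 => hL (fun _ => t) v hv hv0 hv1)
  have hstep : ∀ (t : ℝ) (u v : Fin 4 → ℝ),
      Om (J1 (t + 1)) β T (Mr *ᵥ u) (Mr *ᵥ v) = Om (J1 t) β T u v := by
    intro t u v
    rw [Om_nat hN0 hNr (hJ1deck t), Om_congr (hJ1sq t) hβinv]
  have hMN : Mr * M.adjugate.map (Int.cast : ℤ → ℝ) = 1 := cast_mul_adjugate M hdet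
  have hNM : M.adjugate.map (Int.cast : ℤ → ℝ) * Mr = 1 := cast_adjugate_mul M hdet
  have hup : ∀ t : ℝ, (∀ v : Fin 4 → ℝ, v ≠ 0 → 0 < Om (J1 t) β T v (J1 t *ᵥ v)) →
      ∀ v : Fin 4 → ℝ, v ≠ 0 → 0 < Om (J1 (t + 1)) β T v (J1 (t + 1) *ᵥ v) := by
    intro t h w hw
    have hMv : Mr *ᵥ (M.adjugate.map (Int.cast : ℤ → ℝ) *ᵥ w) = w := by
      rw [Matrix.mulVec_mulVec, hMN, Matrix.one_mulVec]
    have hv : M.adjugate.map (Int.cast : ℤ → ℝ) *ᵥ w ≠ 0 := by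
      intro h0
      rw [h0, Matrix.mulVec_zero] at hMv
      exact hw hMv.symm
    have h1 := h _ hv
    rw [← hstep t, ← JN_mulVec (hJ1deck t), hMv] at h1
    exact h1
  have hdown : ∀ t : ℝ,
      (∀ v : Fin 4 → ℝ, v ≠ 0 → 0 < Om (J1 (t + 1)) β T v (J1 (t + 1) *ᵥ v)) →
      ∀ v : Fin 4 → ℝ, v ≠ 0 → 0 < Om (J1 t) β T v (J1 t *ᵥ v) := by
    intro t h v hv
    have hMv : Mr *ᵥ v ≠ 0 := by
      intro h0
      have h1 : M.adjugate.map (Int.cast : ℤ → ℝ) *ᵥ (Mr *ᵥ v) = v := by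
        rw [Matrix.mulVec_mulVec, hNM, Matrix.one_mulVec]
      rw [h0, Matrix.mulVec_zero] at h1
      exact hv h1.symm
    have h1 := h _ hMv
    rw [JN_mulVec (hJ1deck t), hstep] at h1
    exact h1
  have hall : ∀ (m : ℤ) (t : ℝ), t ∈ Icc (0 : ℝ) 1 →
      ∀ v : Fin 4 → ℝ, v ≠ 0 → 0 < Om (J1 (t + m)) β T v (J1 (t + m) *ᵥ v) := by
    intro m
    induction m using Int.induction_on with
    | zero =>
      intro t ht
      simpa using hT t ht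
    | succ m ih =>
      intro t ht
      have h1 := hup (t + m) (ih t ht)
      have e1 : t + ((m + 1 : ℤ) : ℝ) = t + m + 1 := by push_cast; ring
      rw [e1]
      exact h1
    | pred m ih =>
      intro t ht
      have e1 : t + ((-(m : ℤ) - 1 : ℤ) : ℝ) + 1 = t + ((-(m : ℤ) : ℤ) : ℝ) := by
        push_cast; ring
      have h2 := ih t ht
      rw [← e1] at h2
      exact hdown _ h2
  have htame' : ∀ (x v : Fin 4 → ℝ), v ≠ 0 →
      0 < v ⬝ᵥ (omMat (J x) β T *ᵥ (J x *ᵥ v)) := by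
    intro x v hv
    rw [dot_omMat, hJx x]
    have h1 := hall ⌊x 0⌋ (Int.fract (x 0))
      ⟨Int.fract_nonneg _, (Int.fract_lt_one _).le⟩ v hv
    rw [Int.fract_add_floor] at h1
    exact h1
  refine ⟨fun x => omMat (J x) β T, ⟨fun i j => smooth_omMat hJsm β T i j, fun x n hn => ?_,
    fun x => ?_, fun x => omMat_transpose hβ (J x) T, ?_, fun x => ?_⟩, htame',
    fun x => omMat_J (hJsq x) hβ T⟩
  · simp only [hJper x n hn]
  · apply mat_ext_bil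
    intro u v
    rw [← Matrix.mulVec_mulVec, ← Matrix.mulVec_mulVec, Matrix.dotProduct_mulVec,
      Matrix.vecMul_transpose, dot_omMat, dot_omMat, Om_nat hN0 hNr (hJdeck x),
      Om_congr (hJsq x) hβinv]
  · exact closed_of_slice (fun x => omMat (J x) β T) (fun i j => smooth_omMat hJsm β T i j)
      (fun x => omMat_transpose hβ (J x) T) (fun x y hxy => by simp only [hinv x y hxy]) β
      (fun x j k hj hk => omMat_apply_of_ne hβ (J x) T hj hk)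
  · exact det_ne_zero_of_tames (hJsq x) (htame' x)

end Vale.Agent.Lib.P204
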