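import Mathlib
import Vale.Agent.Lib.P204.Defs
import Vale.Agent.Lib.P204.Algebra
import Vale.Agent.Lib.P204.Average
import Vale.Agent.Lib.P204.Smooth
import Vale.Agent.Lib.P204.Main
import Vale.Agent.Lib.P204.Twisted

namespace Vale.Agent.Lib.P204

open Matrix Set

/-- From a taming symplectic form to a constant two-form positive on the complex lines
`L x = {v | v 0 = 0 ∧ (J x v) 0 = 0}`. -/
theorem beta_of_tamed (J : (Fin 4 → ℝ) → Matrix (Fin 4) (Fin 4) ℝ)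
    (hinv : ∀ x y : Fin 4 → ℝ, x 0 = y 0 → J x = J y)
    (htamed : ∃ ω, IsSymplecticForm ω ∧ Tames ω J) :
    ∃ β : Matrix (Fin 4) (Fin 4) ℝ, βᵀ = -β ∧
      ∀ (x v : Fin 4 → ℝ), v ≠ 0 → v 0 = 0 → (J x *ᵥ v) 0 = 0 →
        0 < v ⬝ᵥ (β *ᵥ (J x *ᵥ v)) := by
  obtain ⟨ω, ⟨⟨hωsm, hωper⟩, hωanti, hωcl, -⟩, htame⟩ := htamed
  refine ⟨avg ω 0, avg_transpose ω hωanti 0, ?_⟩
  intro x v hv hv0 hv1
  have h1 : 0 < v ⬝ᵥ (avg ω (x 0)).mulVec (J x *ᵥ v) := by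
    refine avg_pos ω hωsm (x 0) v (J x *ᵥ v) fun y => ?_
    have h2 := htame (Fin.insertNth 0 (x 0) y) v hv
    rwa [hinv (Fin.insertNth 0 (x 0) y) x (by simp)] at h2
  rw [dot_congr_of_zero (B := avg ω 0)
    (fun j k hj hk => avg_eq ω hωsm (fun x n _ => hωper x n) hωcl hj hk (x 0) 0) hv0 hv1] at h1
  exact h1

/-- From a constant two-form positive on the complex lines `L x` to a compatible symplectic
form. -/
theorem compatible_of_beta (J : (Fin 4 → ℝ) → Matrix (Fin 4) (Fin 4) ℝ)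
    (hJ : IsAlmostComplexStructure J)
    (hinv : ∀ x y : Fin 4 → ℝ, x 0 = y 0 → J x = J y)
    (β : Matrix (Fin 4) (Fin 4) ℝ) (hβ : βᵀ = -β)
    (hL : ∀ (x v : Fin 4 → ℝ), v ≠ 0 → v 0 = 0 → (J x *ᵥ v) 0 = 0 →
      0 < v ⬝ᵥ (β *ᵥ (J x *ᵥ v))) :
    ∃ ω', IsSymplecticForm ω' ∧ IsCompatibleWith ω' J := by
  obtain ⟨⟨hJsm, hJper⟩, hJsq⟩ := hJ
  set J1 : ℝ → Matrix (Fin 4) (Fin 4) ℝ := fun t => J fun _ => t with hJ1
  have hJx : ∀ x : Fin 4 → ℝ, J x = J1 (x 0) := fun x => hinv x _ rfl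
  have hJ1per : ∀ (t : ℝ) (m : ℤ), J1 (t + m) = J1 t := by
    intro t m
    exact hJper (fun _ => t) (fun _ => m)
  have hJ1sq : ∀ t, J1 t * J1 t = -1 := fun t => hJsq _
  have hJ1cont : ∀ i j, Continuous fun t => J1 t i j := fun i j =>
    (hJsm i j).continuous.comp (continuous_pi fun _ => continuous_id)
  obtain ⟨T, hT⟩ := exists_T_unit_interval J1 hJ1cont hJ1sq β
    (fun t v hv hv0 hv1 => hL (fun _ => t) v hv hv0 hv1)
  have htame' : ∀ (x v : Fin 4 → ℝ), v ≠ 0 →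
      0 < v ⬝ᵥ (omMat (J x) β T *ᵥ (J x *ᵥ v)) := by
    intro x v hv
    rw [dot_omMat, hJx x]
    have hfr : J1 (x 0) = J1 (Int.fract (x 0)) := by
      have := hJ1per (Int.fract (x 0)) ⌊x 0⌋
      rw [Int.fract_add_floor] at this
      exact this
    rw [hfr]
    exact hT _ ⟨Int.fract_nonneg _, (Int.fract_lt_one _).le⟩ v hv
  refine ⟨fun x => omMat (J x) β T, ⟨⟨fun i j => smooth_omMat hJsm β T i j, fun x n => ?_⟩,
    fun x => omMat_transpose hβ (J x) T, ?_, fun x => ?_⟩, htame', fun x => omMat_J (hJsq x) hβ T⟩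
  · simp only [hJper x n]
  · exact closed_of_slice (fun x => omMat (J x) β T) (fun i j => smooth_omMat hJsm β T i j)
      (fun x => omMat_transpose hβ (J x) T) (fun x y hxy => by simp only [hinv x y hxy]) β
      (fun x j k hj hk => omMat_apply_of_ne hβ (J x) T hj hk)
  · exact det_ne_zero_of_tames (hJsq x) (htame' x)

/-- The criterion: for `T³`-invariant `J` on `T⁴`, tamed, compatible, and the existence of a
constant two-form positive on the complex lines `L x` are equivalent. -/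
theorem tamed_iff_compatible_iff_beta (J : (Fin 4 → ℝ) → Matrix (Fin 4) (Fin 4) ℝ)
    (hJ : IsAlmostComplexStructure J)
    (hinv : ∀ x y : Fin 4 → ℝ, x 0 = y 0 → J x = J y) :
    ((∃ ω, IsSymplecticForm ω ∧ Tames ω J) ↔ ∃ ω, IsSymplecticForm ω ∧ IsCompatibleWith ω J) ∧
    ((∃ ω, IsSymplecticForm ω ∧ Tames ω J) ↔
      ∃ β : Matrix (Fin 4) (Fin 4) ℝ, βᵀ = -β ∧
        ∀ (x v : Fin 4 → ℝ), v ≠ 0 → v 0 = 0 → (J x *ᵥ v) 0 = 0 →
          0 < v ⬝ᵥ (β *ᵥ (J x *ᵥ v))) := by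
  refine ⟨⟨fun h => ?_, fun h => ?_⟩, ⟨fun h => beta_of_tamed J hinv h, fun h => ?_⟩⟩
  · obtain ⟨β, hβ, hL⟩ := beta_of_tamed J hinv h
    exact compatible_of_beta J hJ hinv β hβ hL
  · obtain ⟨ω, hω, hc⟩ := h
    exact ⟨ω, hω, hc.1⟩
  · obtain ⟨β, hβ, hL⟩ := h
    obtain ⟨ω, hω, hc⟩ := compatible_of_beta J hJ hinv β hβ hL
    exact ⟨ω, hω, hc.1⟩

end Vale.Agent.Lib.P204
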